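import Vale.Agent.P283R.Lf.W
import Vale.Agent.P283R.Lz.Gm
import Vale.Agent.P283R.Lz.On3y
import Vale.Agent.P283R.Lz.On4
import Vale.Agent.P283R.Dn.All
import Vale.Agent.P283R.Eq.On

/-!
# P283R: the theorems in the words of `Lf/W`
-/

open CategoryTheory AlgebraicGeometry

namespace Vale.Agent.P283R.Lf

open Sl Sl.Var Lz

theorem Steps.old {J : ℕ} {X Y : Var} {g : X.X ⟶ Y.X} (h : Steps J g) : Sl.Steps J g := by
  induction h with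
  | one a b => exact .one a b
  | comp _ _ a b => exact .comp a b
  | small p a b c _ i => exact .small p a b c i
  | etale b a1 a2 a3 a4 a5 a6 _ i => exact .etale b a1 a2 a3 a4 a5 a6 i

theorem Steps.new {J : ℕ} {X Y : Var} {g : X.X ⟶ Y.X} (h : Sl.Steps J g) : Steps J g := by
  induction h with
  | one a b => exact .one a b
  | comp _ _ a b => exact .comp a b
  | small p a b c _ i => exact .small p a b c i
  | etale b a1 a2 a3 a4 a5 a6 _ i => exact .etale b a1 a2 a3 a4 a5 a6 i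

/-- nested towers over a class -/
theorem nest (J : ℕ → ℕ) {C : ∀ (d : ℕ) (X Z : Var), (X.X ⟶ Z.X) → X.Form d → Pt Z.X → Prop}
    (h : OnN fun d X Z f ω _ z => C d X Z f ω z) : OnN fun d Y W g η D w =>
      ∃ (e : ℕ) (T : Var) (a : Y.X ⟶ T.X) (h : T.X ⟶ W.X) (θ : T.Form e),
        dimension T.str = e ∧ 1 ≤ e ∧ θ.Nonzero ∧ a ≫ h = g ∧ Steps (J d) a ∧ Triv a η D ∧
        C e T W h θ w :=
  (h.nest Dn.rows J).mono fun _ _ _ _ _ _ _ ⟨e, T, a, h, θ, b1, b2, b3, b4, b5, b6⟩ =>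
    ⟨e, T, a, h, θ, b1, b2, b3, b4, b5.old, b6⟩

theorem lifts (J : ℕ → ℕ) : Lifts fun d _ _ g => Steps (J d) g := fun _ h =>
  (onN_nest Dn.rows J h).mono fun _ _ _ _ _ _ _ ⟨e, a, b, c, t⟩ => ⟨e, a, b, c.old, t⟩

/-- quotients of points of bounded embedding dimension and of mild points -/
theorem _root_.Vale.Agent.P283R.Lz.Lifts.emb {T : ℕ → ∀ X Y : Var, (X.X ⟶ Y.X) → Prop}
    (H : Lifts T) (M : ℕ → ℕ) : OnN fun d Y W g η D w =>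
    ∃ e : ℕ, dimension W.str = e ∧ 1 ≤ e ∧ T d Y W g ∧ Triv g η D ∧
      ∃ (S : Var) (π : S.X ⟶ W.X), FinQuot π ∧ (EmbDim (M e) π w ∧
        (NoTors π w ∨ e = d ∧ Same g D.coeff 0 ∧ ∃ θ : S.Form e, θ.Nonzero ∧
          ∀ x : Pt S.X, x.map π = w → ∃ a, LocalEq (logCan θ 0) 1 a x) ∨
        3 ≤ e ∧ ∃ y, (∀ x : Pt S.X, x.map π = w ↔ x = y) ∧ Sl.Mild e 1 (e - 3) S y) :=
  ((H _ ((on_eq M).or cr_mq |>.mono (C' := fun d _ Z f ω B z => Crepant f ω B z ∧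
      ((∃ (S : Var) (π : S.X ⟶ Z.X), FinQuot π ∧ EmbDim (M d) π z ∧ NoTors π z) ∨
        3 ≤ d ∧ ∃ (S : Var) (π : S.X ⟶ Z.X) (y : Pt S.X), FinQuot π ∧
          (∀ x : Pt S.X, x.map π = z ↔ x = y) ∧ Sl.Mild d 1 (d - 3) S y))
      fun _ _ _ _ _ _ _ u => u.2.imp (fun v => ⟨u.1, v⟩) fun v => ⟨u.1, v⟩)).or
    (onN_eq0 M (fun _ => 1) fun _ => le_rfl)).mono
    fun _ _ _ _ _ _ _ ⟨e, a, b, c, t, S, π, q, u⟩ => by
      rcases u with ⟨u, k | ⟨rfl, k, l⟩⟩ | ⟨u, y, k⟩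
      · exact .inl ⟨e, a, b, c, t, .inl ⟨S, π, q, u, k⟩⟩
      · exact .inr ⟨a, t, k, S, π, q, u, l⟩
      · exact .inl ⟨e, a, b, c, t, .inr ⟨u, S, π, y, q, k⟩⟩

theorem on_q : OnN fun d _ _ f _ _ z => Quot (d := d)
    (fun _ _ g η w => Cplx g η w ∨ ∃ V, w.In V ∧ Ly.Sph (pre g V)) f z := Ly.on_q

theorem on_q2 (M : ℕ → ℕ) : OnN fun d _ _ f _ _ z => Quot (d := d) (fun _ _ g η w =>
    Cplx g η w ∨ ∃ V, w.In V ∧ (Ly.Sph (pre g V) ∨ Ly.Cox (M d) (pre g V))) f z := Ly.on_q2 M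

/-- after an étale base change -/
theorem lit {C : ∀ (d : ℕ) (X Z : Var), (X.X ⟶ Z.X) → X.Form d → X.QDiv → Pt Z.X → Prop}
    (h : OnN C) :
    ∀ d : ℕ, 1 ≤ d → ∀ ε : ℝ, 0 < ε → ∀ R : Finset ℚ, (∀ r ∈ R, 0 ≤ r ∧ r ≤ 1) →
    ∃ n : ℕ, 1 ≤ n ∧ ∀ (X Z : Var) (f : X.X ⟶ Z.X) (ω : X.Form d) (B : X.QDiv)
      (z : Pt Z.X), dimension X.str = d → ω.Nonzero → Pair (ε ≤ ·) (all X.X) ω B →
      (∀ y, B.coeff y ≠ 0 → B.coeff y ∈ R) → Contr f X.str Z.str → Fano f ω →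
      Nef f (-logCan ω B) → z.Closed → EtLoc (C d) f B z → Compl f ω B n z := Lz.lit h

end Vale.Agent.P283R.Lf
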