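import Vale.Agent.P283R.Lf.K
import Vale.Agent.P283R.Lf.On
import Vale.Agent.P283R.Lz.Kp
import Vale.Agent.P283R.Dn.Brg96

/-!
# P283R: the linked data in the words of `Lf/K`
-/

open CategoryTheory AlgebraicGeometry

namespace Vale.Agent.P283R.Lf

open Sl Sl.Var

section

variable {C : ∀ (d : ℕ) (X Z : Var), (X.X ⟶ Z.X) → X.Form d → X.QDiv → Pt Z.X → Prop} {ε : ℝ}
  {R : Finset ℚ}

theorem Link.old {d X Z f ω B z} (h : Link ε R C d X Z f ω B z) :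
    Lz.Link ε R C d X Z f ω B z := by
  induction h with
  | base a b => exact .base a b
  | total t _ a b i => exact .total t i a b
  | near Ω t _ a b c e i => exact .near Ω t i a b c e
  | model _ a b i => exact .model i a b
  | etale π e _ a b c g i => exact .etale π e i a b c g

/-- one index for all data which are linked to a class, and for their neighbours -/
theorem lnk
    (h : On fun d X Z f ω B z => FanoType f ω ∧ NefOver f (-logCan ω B) ∧ C d X Z f ω B z)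
    (d : ℕ) (hε : 0 < ε) (hR : ∀ r ∈ R, 0 ≤ r ∧ r ≤ 1) :
    ∃ n : ℕ, 1 ≤ n ∧ ∀ (X Z : Var) (f : X.X ⟶ Z.X) (ω : X.Form d) (B : X.QDiv) (z : Pt Z.X),
      Link ε R C d X Z f ω B z → Stab R n f ω B z :=
  (Lz.lnk h d hε hR).imp fun _ u => ⟨u.1, fun X Z f ω B z v => u.2 X Z f ω B z v.old⟩

end

theorem Steps.le {J J' : ℕ} {X Y : Var} {g : X.X ⟶ Y.X} (h : Steps J g) (l : J ≤ J') :
    Steps J' g := .new (h.old.mono l)

/-- nested towers over a class, with a real bound for the degree -/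
theorem nestE {a : ℝ} (ha : 0 < a) (b : ℕ → ℝ)
    {C : ∀ (d : ℕ) (X Z : Var), (X.X ⟶ Z.X) → X.Form d → Pt Z.X → Prop}
    (h : OnN fun d X Z f ω _ z => C d X Z f ω z) : OnN fun d Y W g η D w =>
      ∃ (e J : ℕ) (T : Var) (p : Y.X ⟶ T.X) (h : T.X ⟶ W.X) (θ : T.Form e),
        dimension T.str = e ∧ 1 ≤ e ∧ θ.Nonzero ∧ p ≫ h = g ∧ J * a ≤ b d ∧ Steps J p ∧
        Lz.Triv p η D ∧ C e T W h θ w :=
  (nest (fun d => ⌈b d / a⌉₊) h).mono
    fun _ _ _ _ _ _ _ ⟨e, _, T, p, h, θ, b1, b2, b3, b4, l, b5, b6⟩ =>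
      ⟨e, T, p, h, θ, b1, b2, b3, b4, b5.le (Nat.cast_le.1
        (((le_div_iff₀ ha).2 l).trans (Nat.le_ceil _))), b6⟩

/-- the same over a germ -/
theorem liftE {a : ℝ} (ha : 0 < a) (b : ℕ → ℝ) :
    Lz.Lifts fun d _ _ g => ∃ J : ℕ, J * a ≤ b d ∧ Steps J g := fun S h =>
  (lifts (fun d => ⌈b d / a⌉₊) S h).mono fun _ _ _ _ _ _ _ ⟨e, b1, b2, ⟨_, l, c⟩, t⟩ =>
    ⟨e, b1, b2, c.le (Nat.cast_le.1 (((le_div_iff₀ ha).2 l).trans (Nat.le_ceil _))), t⟩

end Vale.Agent.P283R.Lf
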