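import Vale.Agent.P283R.Lf.Ko
import Vale.Agent.P283R.Lh.On
import Vale.Agent.P283R.Eq.On5

/-!
# P283R: two classes for the linked data
-/

open CategoryTheory AlgebraicGeometry

namespace Vale.Agent.P283R.Lf

open Sl Sl.Var Lz

/-- quotients of spherical fibrations and of fibrations with few Cox generators -/
theorem kq (M : ℕ → ℕ) : OnN fun d _ _ f _ _ z => Lh.Quot (d := d) (fun _ _ g _ w =>
    ∃ V, w.In V ∧ (Ly.Sph (pre g V) ∨ Ly.Cox (M d) (pre g V))) f z :=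
  (Lh.on_q2 M).mono fun _ _ _ _ _ _ _ ⟨Y, W, π, g, κ, η, w, a, b, c, e, i, j, k⟩ =>
    ⟨Y, W, π, g, κ, η, w, a, b, c, e, i, j, .inr k⟩

/-- quotients of points of bounded embedding dimension -/
theorem kb {T : ℕ → ∀ X Y : Var, (X.X ⟶ Y.X) → Prop} (H : Lifts T) (M : ℕ → ℕ) :
    OnN fun d Y W g η D w => ∃ e : ℕ, dimension W.str = e ∧ 1 ≤ e ∧ T d Y W g ∧ Triv g η D ∧
      ∃ (S : Var) (π : S.X ⟶ W.X), FinQuot π ∧ EmbDim (M e) π w ∧
        (Index (M e) π w ∨ e = d ∧ ∃ (C : _) (θ : S.Form e) (Δ : S.QDiv), Same g D.coeff C ∧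
          Same π Δ.coeff C ∧ θ.Nonzero ∧ ∀ x : Pt S.X, x.map π = w →
            ∃ m a, 0 < m ∧ m ≤ M e ∧ LocalEq (logCan θ Δ) m a x) :=
  (H.embX M).mono fun _ _ _ _ _ _ _ ⟨e, a, b, c, t, S, π, u, v⟩ =>
    ⟨e, a, b, c, t, S, π, u, .inl v⟩

end Vale.Agent.P283R.Lf
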