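import Vale.Agent.P283R.Lf.Wc96
import Vale.Agent.P283R.Lf.On
import Vale.Agent.P283R.Lz.Oc69

/-!
# P283R: nested towers and their quotients in the words of `Lf/W`
-/

open CategoryTheory AlgebraicGeometry

namespace Vale.Agent.P283R.Lf

open Sl Sl.Var

theorem Stage.old {J : ℕ} {X Y : Var} {g : X.X ⟶ Y.X} (h : Stage J g) : Lz.Stage J g := by
  induction h with
  | one a b => exact .one a b
  | comp _ _ a b => exact .comp a b
  | small p a b c _ i => exact .small p a b c i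
  | cover b c e u v w _ i => exact .cover b c e u v w i

theorem Steps.stage {J : ℕ} {X Y : Var} {g : X.X ⟶ Y.X} (h : Steps J g) : Stage J g := by
  induction h with
  | one a b => exact .one a b
  | comp _ _ a b => exact .comp a b
  | small p a b c _ i => exact .small p a b c i
  | etale b a c e f k l _ i => exact .cover b a e (.inl ⟨c, f⟩) k l i

/-- nested towers and their quotients over a class -/
theorem nestC (J : ℕ → ℕ) {C : ∀ (d : ℕ) (X Z : Var), (X.X ⟶ Z.X) → X.Form d → Pt Z.X → Prop}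
    (h : OnN fun d X Z f ω _ z => C d X Z f ω z) : OnN fun d Y W g η D w =>
      ∃ (e : ℕ) (T : Var) (a : Y.X ⟶ T.X) (h : T.X ⟶ W.X) (θ : T.Form e),
        dimension T.str = e ∧ 1 ≤ e ∧ θ.Nonzero ∧ a ≫ h = g ∧ Stage (J d) a ∧ Lz.Triv a η D ∧
        C e T W h θ w :=
  (Lz.stage J h).mono fun _ _ _ _ _ _ _ ⟨e, T, a, h, θ, b1, b2, b3, b4, b5, b6⟩ =>
    ⟨e, T, a, h, θ, b1, b2, b3, b4, b5.old, b6⟩

theorem liftsC (J : ℕ → ℕ) : Lz.Lifts fun d _ _ g => Stage (J d) g := fun _ h =>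
  (Lz.stage_germ J h).mono fun _ _ _ _ _ _ _ ⟨e, a, b, c, t⟩ => ⟨e, a, b, c.old, t⟩

end Vale.Agent.P283R.Lf
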