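import Vale.Agent.P283R.Lf.W

/-!
# Bounded klt complements: towers of fibrations in curves up to étale base changes and quotients
-/

open CategoryTheory AlgebraicGeometry

namespace Vale.Agent.P283R.Lf

open Sl Sl.Var Lz

/-- The least class of morphisms which contains the contractions of relative dimension at most one,
is closed under composition, contains `g` if it contains `π ≫ g` for a small birational
contraction `π`, and contains a contraction `g : X → Y` if it contains `g' : X' → Y'`, where
`π : X' → X` has degree at most `j` and is the base change along an étale morphism `e : Y' → Y`, not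
necessarily surjective, or is the quotient by a finite group which acts freely in codimension one
and `e` is finite; the index bounds the product of the degrees of nested covers. -/
inductive Stage : ℕ → ∀ {X Y : Var}, (X.X ⟶ Y.X) → Prop
  | one {J : ℕ} {X Y : Var} {g : X.X ⟶ Y.X} : Contr g X.str Y.str →
      dimension X.str ≤ dimension Y.str + 1 → Stage (J + 1) g
  | comp {J : ℕ} {X Y W : Var} {g : X.X ⟶ Y.X} {h : Y.X ⟶ W.X} : Stage J g → Stage J h →
      Stage J (g ≫ h)
  | small {J : ℕ} {X' X Y : Var} {π : X'.X ⟶ X.X} {g : X.X ⟶ Y.X} (p : Iso X X') :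
      Contr π X'.str X.str → IsPull π p → (∀ E : X'.PrimeDiv, (E.1.map π).CodimOne) →
      Stage J (π ≫ g) → Stage J g
  | cover {J j k : ℕ} {X' Y' X Y : Var} {g' : X'.X ⟶ Y'.X} {π : X'.X ⟶ X.X} {e : Y'.X ⟶ Y.X}
      {g : X.X ⟶ Y.X} (b : Fin j → X'.K) : Contr g X.str Y.str → e ≫ Y.str = Y'.str →
      (Etale e ∧ IsPullback π g' g e ∨ IsFinite e ∧ FinQuot π ∧ g' ≫ e = π ≫ g) →
      (∀ a, ∃ (y : _) (c : Fin j → _), a = ∑ i, toRat (comap π y (c i)) * b i) → j * k ≤ J →
      Stage k g' → Stage J g

end Vale.Agent.P283R.Lf
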